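import Vale.Agent.P338.Final

theorem Vale.Agent.Results.P338.A_full.result :
    (∃ A : Vale.Agent.P338.TM, A.Multiplies ∧ ∃ K : ℝ, ∀ n : ℕ, 2 ≤ n →
      (A.T n : ℝ) ≤ K * n * Real.log n ^ (1 - 3 / 10 ^ 8 : ℝ)) ∧
    ¬ ∀ A : Vale.Agent.P338.TM, A.Multiplies → ∃ c : ℝ, 0 < c ∧ ∃ N : ℕ, 2 ≤ N ∧
      ∀ n : ℕ, N ≤ n → c * n * Real.log n ≤ (A.T n : ℝ) :=
  ⟨Vale.Agent.P338.main_bound, Vale.Agent.P338.not_lower_bound⟩
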